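import Vale.Agent.P088.R2.H31.EP.Dat
import Vale.Agent.P088.R2.H222.Inv
import Vale.Agent.P088.R2.H871.RD.Row
import Vale.Agent.P088.R2.H644.W.SymW

/-!
# P088, stage 3: from the data in rate units to families of symbols

`TR K ε R s`: a smooth symmetric tensor with `|D^m (s - 1)| ≤ ε R^{-m}`, `m ≤ K`; the same for the
inverse; the hypotheses `sg`, `nr` of `Lg` and `Tn` of helper644.
-/

open Set Filter
open scoped ContDiff Topology Matrix

noncomputable section

namespace Vale.Agent.P088.R2.H657.W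

open Vale.Agent.P088.LR Vale.Agent.P088.HY Vale.Agent.P088.R2.H31.EP
open Vale.Agent.P088.R2.H644.Sy Vale.Agent.P088.R2.H464.Cu Vale.Agent.P088.R2.H222
open Vale.Agent.P088.R2.H644.Ep

variable {n K : ℕ} {ε R : ℝ} {s : MF n}

/-- A smooth symmetric tensor close to `1` at the scale `R`. -/
structure TR (K : ℕ) (ε R : ℝ) (s : MF n) : Prop where
  sm : ∀ i j, ContDiff ℝ ∞ (fun x => s x i j)
  sy : ∀ x i j, s x i j = s x j i
  cl : ∀ i j, ∀ m ≤ K, ∀ x,
    ‖iteratedFDeriv ℝ m (fun x => s x i j - (1 : Matrix (Fin n) (Fin n) ℝ) i j) x‖ ≤ ε * R⁻¹ ^ m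

theorem Rg.t1 {M σ kap Gs : ℝ} {s₁ s₂ : MF n} (h : Rg K ε M σ R kap Gs s₁ s₂) : TR K ε R s₁ where
  sm := h.sm₁
  sy x i j := (h.sy₁ x).apply j i
  cl := h.cl₁

theorem Rg.t2 {M σ kap Gs : ℝ} {s₁ s₂ : MF n} (h : Rg K ε M σ R kap Gs s₁ s₂) : TR K ε R s₂ where
  sm := h.sm₂
  sy x i j := (h.sy₂ x).apply j i
  cl := h.cl₂

theorem TR.mono {K' : ℕ} {ε' : ℝ} (h : TR K ε R s) (hR : 0 < R) (hK : K' ≤ K) (hε : ε ≤ ε') :
    TR K' ε' R s where
  sm := h.sm
  sy := h.sy
  cl i j m hm x := (h.cl i j m (hm.trans hK) x).trans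
    (mul_le_mul_of_nonneg_right hε (pow_nonneg (inv_nonneg.2 hR.le) m))

/-- The constant of the inverse. -/
def cG (n K : ℕ) : ℝ := n * (2 ^ K * cI n K)

theorem cG_nn (n K : ℕ) : 0 ≤ cG n K := by
  have := two_le_cI n K
  unfold cG
  positivity

theorem gi_sym {s : MF n} (sy : ∀ x i j, s x i j = s x j i) (x : V n) (i j : Fin n) :
    gi s x i j = gi s x j i := by
  have h1 : (s x)ᵀ = s x := by
    ext a b
    exact sy x b a
  have h2 : ((s x)⁻¹)ᵀ = (s x)⁻¹ := by rw [Matrix.transpose_nonsing_inv, h1]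
  have h3 := congrFun (congrFun h2 i) j
  rw [Matrix.transpose_apply] at h3
  exact h3.symm

/-- **The inverse tensor.** -/
theorem TR.inv (h : TR K ε R s) (hR : 0 < R) (h1 : ε ≤ 1) (hε : n * ε ≤ 1 / 2) :
    TR K (cG n K * ε) R (gi s) := by
  -- the tensor at the scale one
  set t : MF n := fun x => s (R • x) with ht
  have ck : Ck K univ ε t := by
    intro i j
    have hf : ContDiff ℝ ∞ (fun x => s x i j - dl i j) := (h.sm i j).sub contDiff_const
    refine ⟨isOpen_univ, (hf.comp (contDiff_const_smul R)).contDiffOn, fun m hm x _ => ?_⟩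
    have e1 := H871.RD.it_scale hf hR.le m x
    refine e1.trans ?_
    refine (mul_le_mul_of_nonneg_right (h.cl i j m hm (R • x)) (pow_nonneg hR.le m)).trans
      (le_of_eq ?_)
    rw [mul_assoc, ← mul_pow, inv_mul_cancel₀ hR.ne', one_pow, mul_one]
  have ci := ck.inv isOpen_univ h1 hε
  have hd : ∀ x, (s x).det ≠ 0 := fun x => by
    have h3 : (t (R⁻¹ • x)).det ≠ 0 := ck.det hε (mem_univ (R⁻¹ • x))
    have e : t (R⁻¹ • x) = s x := by simp only [ht, smul_inv_smul₀ hR.ne']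
    rwa [e] at h3
  have hsm : ∀ i j, ContDiff ℝ ∞ (fun x => gi s x i j) := fun i j => by
    rw [← contDiffOn_univ]
    exact inv_smooth (fun i j => (h.sm i j).contDiffOn) (fun x _ => hd x) i j
  refine ⟨hsm, fun x i j => gi_sym h.sy x i j, fun i j m hm x => ?_⟩
  have hg : ContDiff ℝ ∞ (fun x => gi t x i j - dl i j) := by
    rw [← contDiffOn_univ]
    exact (ci i j).s
  have e1 := H871.RD.it_scale hg (inv_nonneg.2 hR.le) m x
  have e2 : (fun x => gi t (R⁻¹ • x) i j - dl i j) = fun x => gi s x i j - dl i j := by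
    funext y
    simp only [gi, ht, smul_inv_smul₀ hR.ne']
  rw [e2] at e1
  exact e1.trans (mul_le_mul_of_nonneg_right ((ci i j).b m hm _ (mem_univ _))
    (pow_nonneg (inv_nonneg.2 hR.le) m))

/-- Pointwise bounds of the first and second partial derivatives. -/
theorem TR.nr (h : TR K ε R s) (hK : 2 ≤ K) (O : Set (V n)) :
    Nr O ε (ε * R⁻¹) (ε * R⁻¹ ^ 2) s where
  sm i j := (h.sm i j).contDiffOn
  sy := h.sy
  b0 x _ i j := by
    have := h.cl i j 0 (Nat.zero_le _) x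
    simpa using this
  b1 x _ k i j := by
    have h1 := h.cl i j 1 (by omega) x
    have e1 : fderiv ℝ (fun y => s y i j - (1 : Matrix (Fin n) (Fin n) ℝ) i j) x =
        fderiv ℝ (fun y => s y i j) x := fderiv_sub_const _
    rw [norm_iteratedFDeriv_one, e1, pow_one] at h1
    unfold pd
    refine ((fderiv ℝ (fun y => s y i j) x).le_opNorm _).trans ?_
    rw [Pi.norm_single, norm_one, mul_one]
    exact h1
  b2 x _ l k i j := by
    have h1 := h.cl i j 2 hK x
    have e1 : fderiv ℝ (fun y => s y i j - (1 : Matrix (Fin n) (Fin n) ℝ) i j) =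
        fderiv ℝ (fun y => s y i j) := funext fun _ => fderiv_sub_const _
    rw [← norm_iteratedFDeriv_fderiv, norm_iteratedFDeriv_one, e1] at h1
    have e2 : pd k (fun y => s y i j) = fun x => fderiv ℝ (fun y => s y i j) x (Pi.single k 1) :=
      rfl
    have d1 : DifferentiableAt ℝ (fderiv ℝ (fun y => s y i j)) x :=
      (((h.sm i j).fderiv_right (m := ∞) le_rfl).differentiable (by norm_num)) x
    have e3 : fderiv ℝ (fun x => fderiv ℝ (fun y => s y i j) x (Pi.single k 1)) x (Pi.single l 1) =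
        fderiv ℝ (fderiv ℝ (fun y => s y i j)) x (Pi.single l 1) (Pi.single k 1) := by
      rw [fderiv_clm_apply d1 (differentiableAt_const _)]
      simp
    have e4 : pd l (pd k (fun y => s y i j)) x =
        fderiv ℝ (fun x => fderiv ℝ (fun y => s y i j) x (Pi.single k 1)) x (Pi.single l 1) := rfl
    rw [e4, e3]
    set B := fderiv ℝ (fderiv ℝ (fun y => s y i j)) x with hB
    refine ((B (Pi.single l 1)).le_opNorm (Pi.single k 1)).trans ?_
    rw [Pi.norm_single, norm_one, mul_one]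
    refine (B.le_opNorm (Pi.single l 1)).trans ?_
    rw [Pi.norm_single, norm_one, mul_one]
    exact h1

section fam

variable {α : Type*} {O : α → Set (V n)} {ρ e : α → ℝ} {S : α → MF n}

/-- The deviation from `1` is a symbol of size `ε` at the scale `R`. -/
theorem TR.sf (h : ∀ a, TR K (e a) (ρ a) (S a)) (i j : Fin n) :
    Sf O (fun a _ => ρ a) (fun a _ => e a) K
      (fun a x => S a x i j - (1 : Matrix (Fin n) (Fin n) ℝ) i j) where
  sm a := (((h a).sm i j).sub contDiff_const).contDiffOn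
  bd m hm := ⟨1, fun a x _ => by
    rw [one_mul]
    exact (h a).cl i j m hm x⟩

/-- The entries are symbols of size `1` at the scale `R`. -/
theorem TR.sf1 (h : ∀ a, TR K (e a) (ρ a) (S a)) (hO : ∀ a, IsOpen (O a)) (hR : ∀ a, 0 < ρ a)
    (h0 : ∀ a, 0 ≤ e a) {A : ℝ} (hA : ∀ a, e a ≤ A) (i j : Fin n) :
    Sf O (fun a _ => ρ a) (fun _ _ => 1) K (fun a x => S a x i j) := by
  have h1 : Sf O (fun a _ => ρ a) (fun _ _ => 1) K
      (fun a x => S a x i j - (1 : Matrix (Fin n) (Fin n) ℝ) i j) :=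
    (TR.sf h i j).mono (A := A) (fun a _ _ => hR a) (fun a _ _ => h0 a) fun a _ _ => by
      rw [mul_one]; exact hA a
  have h2 := h1.add hO (Sf.const1 O (fun a _ => ρ a) K ((1 : Matrix (Fin n) (Fin n) ℝ) i j))
  exact h2.congr hO fun a x _ => by ring

/-- Helper644's `Tn` for the tensors. -/
theorem TR.tn (h : ∀ a, TR (K + 1) (e a) (ρ a) (S a)) (hO : ∀ a, IsOpen (O a))
    (hR : ∀ a, 1 ≤ ρ a) (h0 : ∀ a, 0 ≤ e a) {A : ℝ} (hA : ∀ a, e a ≤ A) :
    Tn O S (fun a => (ρ a)⁻¹) K :=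
  Tn.of_R hO hR fun i j => TR.sf1 h hO (fun a => one_pos.trans_le (hR a)) h0 hA i j

/-- **Helper644's `Lg`** from the bounds of the level and of the first tensor. -/
theorem lg_of {U : α → Set (VV n)} {l : α → V n → ℝ} {A : ℝ} {k : ℕ}
    (h : ∀ a, TR K (e a) (ρ a) (S a)) (hk : k + 1 ≤ K) (h2 : 2 ≤ K)
    (hO : ∀ a, IsOpen (O a)) (hU : ∀ a, IsOpen (U a)) (hR : ∀ a, 1 ≤ ρ a) (h0 : ∀ a, 0 ≤ e a)
    (he : ∀ a, e a ≤ 1) (hn : ∀ a, n * e a ≤ 1 / 2) (hn' : ∀ a, n * (cG n K * e a) ≤ 1 / 2)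
    (hx : ∀ a, ∀ z ∈ U a, z.1 ∈ O a) (hy : ∀ a, ∀ z ∈ U a, z.2 ∈ O a)
    (hm : ∀ a, ∀ z ∈ U a, mid z ∈ O a) (sl : ∀ a, ContDiffOn ℝ ∞ (l a) (O a))
    (dl : Sf O (fun a _ => ρ a) (fun _ _ => 1) k (fun a => fderiv ℝ (l a)))
    (rR : ∀ a, ∀ z ∈ U a, √(r2 (gi (S a)) z) ≤ A * ρ a) :
    Lg O U ρ l (fun a => gi (S a)) A k := by
  have hi : ∀ a, TR K (cG n K * e a) (ρ a) (gi (S a)) := fun a =>
    (h a).inv (one_pos.trans_le (hR a)) (he a) (hn a)
  exact
  { oO := hO
    oU := hU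
    hx := hx
    hy := hy
    hm := hm
    R1 := hR
    sl := sl
    dl := dl
    sg := fun i j => (TR.sf1 hi hO (fun a => one_pos.trans_le (hR a))
      (fun a => mul_nonneg (cG_nn n K) (h0 a)) (A := cG n K)
      (fun a => mul_le_of_le_one_right (cG_nn n K) (he a)) i j).mono_k hk
    nr := fun a => ⟨_, _, _, hn' a, (hi a).nr h2 (O a)⟩
    rR := rR }

end fam

end Vale.Agent.P088.R2.H657.W
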